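import Vale.Agent.P168.Defs

/-!
P168: exchangeable spin arrays on the regular tree of depth `K`, and the telescoped identities
that the limit arrays satisfy.
-/

open MeasureTheory ProbabilityTheory Filter Topology

noncomputable section

namespace Vale.Agent.P168

variable {K : ℕ}

/-- A replica: a path in the infinitely branching tree and the number of the copy in its leaf. -/
abbrev Pt (K : ℕ) : Type := (Fin K → ℕ) × ℕ

/-- The number of common ancestors of two paths. -/
def com' (x y : Fin K → ℕ) : ℕ :=
  (Finset.univ.filter fun l : Fin K => ∀ i : Fin K, i ≤ l → x i = y i).card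

/-- A relabelling of the replicas that respects the tree. -/
def IsTreeMap (π : Pt K → Pt K) : Prop :=
  Function.Injective π ∧ ∀ a b, com' (π a).1 (π b).1 = com' a.1 b.1

/-- Spins of all replicas at countably many sites, exchangeable along the tree and between
sites. -/
structure Arr (K : ℕ) where
  law : Measure (Pt K → ℕ → Bool)
  prob : IsProbabilityMeasure law
  inv : ∀ (π : Pt K → Pt K), IsTreeMap π → ∀ τ : ℕ → ℕ, Function.Injective τ →
    law.map (fun σ a i => σ (π a) (τ i)) = law

/-- An observable at one site. -/
abbrev Obs (K : ℕ) : Type := (Pt K → Bool) → ℝ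

namespace Arr

variable (A : Arr K)

/-- Mean of an observable at a site. -/
def mean (x : Obs K) : ℝ := ∫ σ, x (fun a => σ a 0) ∂A.law

/-- Mean product of two observables at two different sites. -/
def pair (x y : Obs K) : ℝ := ∫ σ, x (fun a => σ a 0) * y (fun a => σ a 1) ∂A.law

/-- The seminorm of the two-site form: the `L²` norm of the site average. -/
def nrm (x : Obs K) : ℝ := √(A.pair x x)

end Arr

/-- Binary shapes with the levels of their branchings. -/
inductive Sh where
  | leaf : Sh
  | node : ℕ → Sh → Sh → Sh
  deriving DecidableEq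

namespace Sh

/-- Number of leaves. -/
def size : Sh → ℕ
  | leaf => 1
  | node _ L R => L.size + R.size

/-- Levels of the branchings. -/
def levels : Sh → Finset ℕ
  | leaf => ∅
  | node h L R => insert h (L.levels ∪ R.levels)

/-- All branchings are at levels in `[g, K)`, increasing away from the root. -/
def Valid (K : ℕ) : ℕ → Sh → Prop
  | _, leaf => True
  | g, node h L R => g ≤ h ∧ h < K ∧ Valid K (h + 1) L ∧ Valid K (h + 1) R

/-- The shape with every level lowered by `s`. -/
def lower (s : ℕ) : Sh → Sh
  | leaf => leaf
  | node h L R => node (h - s) (L.lower s) (R.lower s)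

/-- The level of the first branching, and `K` for a leaf. -/
def top (K : ℕ) : Sh → ℕ
  | leaf => K
  | node h _ _ => h

end Sh

/-- All valid shapes with levels in `[g, K)` and at most `n` leaves. -/
def shapesLe (K : ℕ) : ℕ → ℕ → Finset Sh
  | 0, _ => {Sh.leaf}
  | n + 1, g => insert Sh.leaf ((Finset.Ico g K).biUnion fun h =>
      (shapesLe K n (h + 1) ×ˢ shapesLe K n (h + 1)).image fun p => Sh.node h p.1 p.2)

/-- All valid shapes with levels in `[g, K)` and exactly `n` leaves. -/
def shapes (K n g : ℕ) : Finset Sh := (shapesLe K n g).filter fun s => s.size = n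

/-- The path `x` with coordinate `a` set to `j` and the deeper coordinates set to `0`. -/
def put (x : Fin K → ℕ) (a j : ℕ) : Fin K → ℕ :=
  fun l => if (l : ℕ) < a then x l else if (l : ℕ) = a then j else 0

/-- The product of the spins of a tuple of a given shape below a path. -/
def tup : Sh → (Fin K → ℕ) → Obs K
  | Sh.leaf, x => fun σ => sgn (σ (x, 0))
  | Sh.node h L R, x => fun σ => tup L (put x h 0) σ * tup R (put x h 1) σ

/-- The same product with the two children of the first branching labelled `i` and `j`. -/
def tupF (i j : ℕ) : Sh → (Fin K → ℕ) → Obs K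
  | Sh.leaf, x => tup Sh.leaf x
  | Sh.node h L R, x => fun σ => tup L (put x h i) σ * tup R (put x h j) σ

/-- Two tuples in the children `i` and `j` of the node at level `a` on the path `x`. -/
def duo (s t : Sh) (x : Fin K → ℕ) (a i j : ℕ) : Obs K :=
  fun σ => tup s (put x a i) σ * tup t (put x a j) σ

/-- The cascade parameter of level `g`. -/
def mpar (K g : ℕ) : ℝ := g / ((K : ℝ) + 1)

/-- The gap of the uniform cascade. -/
def gapK (K : ℕ) : ℝ := 1 / ((K : ℝ) + 1)

namespace Arr

variable (A : Arr K)

/-- The change of a duo of equal shapes when both tuples move to fresh children. -/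
def dev (s : Sh) (a : ℕ) : ℝ := A.nrm (duo s s (fun _ => 0) a 0 1 - duo s s (fun _ => 0) a 2 3)

/-- The cost of moving both halves of the tuples of shape `s` to fresh children. -/
def half : Sh → ℝ
  | Sh.leaf => 0
  | Sh.node h L R => √(A.dev L h) + √(A.dev R h)

/-- Distance of a tuple from its mean. -/
def fluctuation (s : Sh) : ℝ :=
  A.nrm fun σ => tup s (fun _ => 0) σ - A.mean (tup s fun _ => 0)

/-- The telescoped identities: the duo of shape `t` attached to the first tuple of a duo of shape
`s` at the same level, and the duo attached below it at a deeper level. -/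
structure Tel (C : ℕ → ℝ) : Prop where
  one : A.fluctuation Sh.leaf = 0
  same : ∀ (a : ℕ) (s t : Sh), a < K → s.Valid K (a + 1) → t.Valid K (a + 1) → s.size = t.size →
    (t = Sh.leaf ∨ (t.top K < s.top K ∧ Disjoint s.levels t.levels)) →
    let z : Fin K → ℕ := fun _ => 0
    let f : Obs K := duo s s z a 0 1
    let U : (Fin K → ℕ) → Obs K := fun x σ => tupF 2 3 t (put z a 0) σ * tupF 2 3 t x σ
    |mpar K (t.top K) * A.pair f (U (put z a 1))
        - gapK K * ∑ c ∈ Finset.Ioo a (t.top K), A.pair f (U (put (put z a 1) c 2))
        - (mpar K (a + 1) + gapK K) * A.pair f (U (put z a 2))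
        + gapK K * A.mean f * A.mean (U (put z a 1))|
      ≤ C s.size * (gapK K + A.half t)
  below : ∀ (a b : ℕ) (L R L' R' : Sh), a < b → L.Valid K (b + 1) → R.Valid K (a + 1) →
    L'.Valid K (b + 1) → R'.Valid K (b + 1) →
    Disjoint (L.levels ∪ R.levels) (L'.levels ∪ R'.levels) →
    let z : Fin K → ℕ := fun _ => 0
    let f : Obs K := duo L R z a 0 1
    let g : Obs K := duo L' R' (put z a 0) b 2 3
    |A.pair f g - A.mean f * A.mean g| ≤
      C (L.size + R.size + L'.size + R'.size) * (gapK K + √(A.dev L' b) + √(A.dev R' b))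

end Arr

/-- Tuples of every size decouple between sites, on average over their levels. -/
def Decoupling : Prop :=
  ∀ C : ℕ → ℝ, ∀ n : ℕ, 1 ≤ n → ∀ ε : ℝ, 0 < ε → ∃ K0 : ℕ, ∀ K ≥ K0, ∀ A : Arr K, A.Tel C →
    ∑ s ∈ shapes K n 0, A.fluctuation s ≤ ε * (K : ℝ) ^ (n - 1)

end Vale.Agent.P168
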