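import Vale.Agent.P168.Arr

/-!
P168: finite configurations of replicas with the same levels have the same law.
-/

open MeasureTheory ProbabilityTheory Filter Topology

noncomputable section

namespace Vale.Agent.P168

variable {K : ℕ}

theorem sgn_abs (s : Bool) : |sgn s| = 1 := by cases s <;> simp [sgn]

theorem com'_self (x : Fin K → ℕ) : com' x x = K := by simp [com']

theorem com'_comm (x y : Fin K → ℕ) : com' x y = com' y x := by
  unfold com'
  exact congrArg Finset.card (Finset.filter_congr fun l _ =>
    forall₂_congr fun i _ => ⟨Eq.symm, Eq.symm⟩)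

theorem com'_le (x y : Fin K → ℕ) : com' x y ≤ K :=
  (Finset.card_filter_le _ _).trans_eq (by simp)

/-- Two paths agree up to a level iff the level is below their common depth. -/
theorem lt_com'_iff (x y : Fin K → ℕ) (l : Fin K) :
    (l : ℕ) < com' x y ↔ ∀ i : Fin K, i ≤ l → x i = y i := by
  constructor
  · intro h
    by_contra hc
    refine absurd h (not_lt.2 ?_)
    calc com' x y ≤ (Finset.Iio l).card := Finset.card_le_card fun k hk => Finset.mem_Iio.2 (by
            by_contra hl
            exact hc fun i hi => (Finset.mem_filter.1 hk).2 i (le_trans hi (not_lt.1 hl)))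
      _ = (l : ℕ) := Fin.card_Iio l
  · intro h
    calc (l : ℕ) < (Finset.Iic l).card := by simp
      _ ≤ com' x y := Finset.card_le_card fun k hk => Finset.mem_filter.2
          ⟨Finset.mem_univ _, fun i hi => h i (le_trans hi (Finset.mem_Iic.1 hk))⟩

open Classical in
/-- Finite configurations with the same levels are exchanged by a relabelling of the tree. -/
theorem exists_treeMap {ι : Type*} [Finite ι] (p q : ι → Pt K)
    (hcom : ∀ i j, com' (p i).1 (p j).1 = com' (q i).1 (q j).1)
    (heq : ∀ i j, p i = p j ↔ q i = q j) : ∃ π, IsTreeMap π ∧ ∀ i, π (p i) = q i := by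
  cases nonempty_fintype ι
  set B : ℕ := ∑ i, ((∑ l, ((q i).1 l + 1)) + ((q i).2 + 1)) with hB
  have hB1 : ∀ i l, (q i).1 l < B := fun i l => by
    have h1 : (q i).1 l + 1 ≤ ∑ l, ((q i).1 l + 1) :=
      Finset.single_le_sum (f := fun l => (q i).1 l + 1) (fun _ _ => Nat.zero_le _) (Finset.mem_univ l)
    have h2 : (∑ l, ((q i).1 l + 1)) + ((q i).2 + 1) ≤ B :=
      Finset.single_le_sum (f := fun i => (∑ l, ((q i).1 l + 1)) + ((q i).2 + 1))
        (fun _ _ => Nat.zero_le _) (Finset.mem_univ i)
    omega
  have hB2 : ∀ i, (q i).2 < B := fun i => by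
    have h2 : (∑ l, ((q i).1 l + 1)) + ((q i).2 + 1) ≤ B :=
      Finset.single_le_sum (f := fun i => (∑ l, ((q i).1 l + 1)) + ((q i).2 + 1))
        (fun _ _ => Nat.zero_le _) (Finset.mem_univ i)
    omega
  set f : (Fin K → ℕ) → Fin K → ℕ := fun x l =>
    if h : ∃ i, ∀ k : Fin K, k ≤ l → (p i).1 k = x k then (q h.choose).1 l else x l + B with hf
  have hpq : ∀ i j l, (∀ k : Fin K, k ≤ l → (p i).1 k = (p j).1 k) ↔
      ∀ k : Fin K, k ≤ l → (q i).1 k = (q j).1 k := fun i j l => by
    rw [← lt_com'_iff, ← lt_com'_iff, hcom]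
  have hfp : ∀ i l, f (p i).1 l = (q i).1 l := fun i l => by
    have h : ∃ i', ∀ k : Fin K, k ≤ l → (p i').1 k = (p i).1 k := ⟨i, fun _ _ => rfl⟩
    simp only [hf, dif_pos h]
    exact (hpq _ _ l).1 h.choose_spec l le_rfl
  have hfiff : ∀ x y l, (∀ k : Fin K, k ≤ l → f x k = f y k) ↔
      ∀ k : Fin K, k ≤ l → x k = y k := by
    intro x y l
    constructor
    · intro h
      by_contra hc
      push Not at hc
      obtain ⟨k0, hk0, hne⟩ := hc
      set S : Finset (Fin K) := Finset.univ.filter fun k => x k ≠ y k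
      have hS : S.Nonempty := ⟨k0, by simp [S, hne]⟩
      have hmS : x (S.min' hS) ≠ y (S.min' hS) := by
        simpa [S] using S.min'_mem hS
      have hml : S.min' hS ≤ l := le_trans (S.min'_le k0 (by simp [S, hne])) hk0
      have hbefore : ∀ k, k < S.min' hS → x k = y k := fun k hk => by
        by_contra h'
        exact absurd (S.min'_le k (by simp [S, h'])) (not_le.2 hk)
      set m := S.min' hS
      have e := h m hml
      by_cases hx : ∃ i, ∀ k : Fin K, k ≤ m → (p i).1 k = x k <;>
        by_cases hy : ∃ i, ∀ k : Fin K, k ≤ m → (p i).1 k = y k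
      · have eall : ∀ k : Fin K, k ≤ m → (q hx.choose).1 k = (q hy.choose).1 k := by
          intro k hk
          rcases lt_or_eq_of_le hk with hk' | rfl
          · exact (hpq _ _ k).1 (fun k' hk'' => by
              rw [hx.choose_spec k' (le_trans hk'' hk), hy.choose_spec k' (le_trans hk'' hk)]
              exact hbefore k' (lt_of_le_of_lt hk'' hk')) k le_rfl
          · simpa only [hf, dif_pos hx, dif_pos hy] using e
        have := (hpq _ _ m).2 eall m le_rfl
        rw [hx.choose_spec m le_rfl, hy.choose_spec m le_rfl] at this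
        exact hmS this
      · simp only [hf, dif_pos hx, dif_neg hy] at e
        have := hB1 hx.choose m
        omega
      · simp only [hf, dif_neg hx, dif_pos hy] at e
        have := hB1 hy.choose m
        omega
      · simp only [hf, dif_neg hx, dif_neg hy] at e
        omega
    · intro h k hk
      have hx : ∀ i, (∀ k' : Fin K, k' ≤ k → (p i).1 k' = x k') ↔
          ∀ k' : Fin K, k' ≤ k → (p i).1 k' = y k' := fun i =>
        forall₂_congr fun k' hk' => by rw [h k' (le_trans hk' hk)]
      simp only [hf, hx, h k hk]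
  have hfcom : ∀ x y, com' (f x) (f y) = com' x y := fun x y => by
    unfold com'
    exact congrArg Finset.card (Finset.filter_congr fun l _ => hfiff x y l)
  have hfinj : Function.Injective f := fun x y h => funext fun l =>
    (hfiff x y l).1 (fun k _ => by rw [h]) l le_rfl
  set π : Pt K → Pt K := fun a =>
    (f a.1, if h : ∃ i, p i = a then (q h.choose).2 else a.2 + B) with hπ
  refine ⟨π, ⟨fun a b hab => ?_, fun a b => hfcom a.1 b.1⟩, fun i => ?_⟩
  · have h1 : a.1 = b.1 := hfinj (congrArg Prod.fst hab)
    have h2 := congrArg Prod.snd hab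
    simp only [hπ] at h2
    by_cases ha : ∃ i, p i = a <;> by_cases hb : ∃ i, p i = b
    · rw [dif_pos ha, dif_pos hb] at h2
      have hq : q ha.choose = q hb.choose := Prod.ext (funext fun l => by
        rw [← hfp, ← hfp, ha.choose_spec, hb.choose_spec, h1]) h2
      rw [← ha.choose_spec, ← hb.choose_spec]
      exact (heq _ _).2 hq
    · rw [dif_pos ha, dif_neg hb] at h2
      have := hB2 ha.choose
      omega
    · rw [dif_neg ha, dif_pos hb] at h2
      have := hB2 hb.choose
      omega
    · rw [dif_neg ha, dif_neg hb] at h2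
      exact Prod.ext h1 (by omega)
  · have h : ∃ j, p j = p i := ⟨i, rfl⟩
    refine Prod.ext (funext fun l => hfp i l) ?_
    simp only [hπ, dif_pos h, (heq _ _).1 h.choose_spec]

namespace Arr

variable (A : Arr K)

/-- Configurations with the same levels have the same law of spins. -/
theorem map_congr {ι : Type*} [Finite ι] (p q : ι → Pt K)
    (hcom : ∀ i j, com' (p i).1 (p j).1 = com' (q i).1 (q j).1)
    (heq : ∀ i j, p i = p j ↔ q i = q j) {τ : ℕ → ℕ} (hτ : Function.Injective τ) :
    A.law.map (fun σ i s => σ (q i) (τ s)) = A.law.map (fun σ i s => σ (p i) s) := by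
  obtain ⟨π, hπ, hπq⟩ := exists_treeMap p q hcom heq
  have hm : Measurable fun (σ : Pt K → ℕ → Bool) (a : Pt K) (s : ℕ) => σ (π a) (τ s) := by fun_prop
  conv_rhs => rw [← A.inv π hπ τ hτ]
  rw [Measure.map_map (by fun_prop) hm]
  simp only [Function.comp_def, hπq]

/-- The same for integrals. -/
theorem integral_congr {ι : Type*} [Finite ι] (p q : ι → Pt K)
    (hcom : ∀ i j, com' (p i).1 (p j).1 = com' (q i).1 (q j).1)
    (heq : ∀ i j, p i = p j ↔ q i = q j) {τ : ℕ → ℕ} (hτ : Function.Injective τ)
    {g : (ι → ℕ → Bool) → ℝ} (hg : Measurable g) :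
    ∫ σ, g (fun i s => σ (q i) (τ s)) ∂A.law = ∫ σ, g (fun i s => σ (p i) s) ∂A.law := by
  have h1 : Measurable fun (σ : Pt K → ℕ → Bool) (i : ι) (s : ℕ) => σ (q i) (τ s) := by fun_prop
  have h2 : Measurable fun (σ : Pt K → ℕ → Bool) (i : ι) (s : ℕ) => σ (p i) s := by fun_prop
  rw [← integral_map h1.aemeasurable hg.aestronglyMeasurable, A.map_congr p q hcom heq hτ,
    integral_map h2.aemeasurable hg.aestronglyMeasurable]

end Arr

end Vale.Agent.P168
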