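import Mathlib

/-!
P168: diluted spin glasses and the Mézard–Parisi functional.
-/

open MeasureTheory ProbabilityTheory Filter Topology
open scoped NNReal

noncomputable section

namespace Vale.Agent.P168

/-- The value of a spin. -/
def sgn (s : Bool) : ℝ := if s then 1 else -1

/-- A clause potential on `K` spins. -/
abbrev Clause (K : ℕ) : Type := (Fin K → Bool) → ℝ

/-- A clause potential together with the sites of its spins. -/
abbrev Term (K N : ℕ) : Type := Clause K × (Fin K → Fin N)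

/-- The uniform law on a finite type. -/
def unif (T : Type*) [Fintype T] [MeasurableSpace T] : Measure T :=
  (Fintype.card T : ℝ≥0)⁻¹ • Measure.count

/-- The Hamiltonian of the listed terms and fields. -/
def ham {K N k : ℕ} (c : Fin k → Term K N) (h : Fin N → ℝ) (σ : Fin N → Bool) : ℝ :=
  (∑ j, (c j).1 fun p => σ ((c j).2 p)) + ∑ i, h i * sgn (σ i)

/-- The pressure `F_N`: a Poisson number of mean `lam * N` of independent clauses at uniform
sites, and independent fields. -/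
def pressure {K : ℕ} (lam : ℝ) (μ : Measure (Clause K)) (ν : Measure ℝ) (N : ℕ) : ℝ :=
  (N : ℝ)⁻¹ * ∫ k, ∫ c : Fin k → Term K N, ∫ h : Fin N → ℝ,
      Real.log (∑ σ : Fin N → Bool, Real.exp (ham c h σ))
    ∂(Measure.pi fun _ => ν)
    ∂(Measure.pi fun _ => μ.prod (unif (Fin K → Fin N)))
    ∂poissonMeasure (lam * N).toNNReal

/-- The uniform law on `[0, 1]`. -/
def u01 : Measure ℝ := volume.restrict (Set.Icc 0 1)

/-- The level variables of the `K` messages attached to each of `k` clauses. -/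
def lvl (k K : ℕ) : Measure (Fin k → Fin K → ℝ) :=
  Measure.pi fun _ => Measure.pi fun _ => u01

/-- `Y₀` of the recursion `Y_r = Y`, `Y_{p-1} = (E_p Y_p ^ m_p) ^ (1 / m_p)`. -/
def rpowRec {X : Type*} [MeasurableSpace X] (ν : Measure X) :
    (r : ℕ) → (Fin r → ℝ) → ((Fin r → X) → ℝ) → ℝ
  | 0, _, Y => Y Fin.elim0
  | r + 1, m, Y =>
      (∫ y, rpowRec ν r (fun p => m p.succ) (fun z => Y (Fin.cons y z)) ^ m 0 ∂ν) ^ (m 0)⁻¹

variable {K r k : ℕ}

/-- The message of clause `j` at position `i`. -/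
def msg (x : (Fin (r + 1) → ℝ) → ℝ) (ω : Fin (r + 1) → Fin k → Fin K → ℝ) (j : Fin k)
    (i : Fin K) : ℝ :=
  x fun p => ω p j i

/-- The variable `U` at given clauses, positions, field and messages. -/
def Uval (c : Fin k → Clause K × Fin K) (h : ℝ) (x : (Fin (r + 1) → ℝ) → ℝ)
    (ω : Fin (r + 1) → Fin k → Fin K → ℝ) : ℝ :=
  ∑ e : Bool, Real.exp (h * sgn e) * ∏ j,
    ∑ σ : Fin K → Bool, if σ (c j).2 = e then
      Real.exp ((c j).1 σ) * ∏ i ∈ Finset.univ.erase (c j).2,
        (1 + msg x ω j i * sgn (σ i)) / 2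
    else 0

/-- The variable `V` at given clauses and messages. -/
def Vval (c : Fin k → Clause K) (x : (Fin (r + 1) → ℝ) → ℝ)
    (ω : Fin (r + 1) → Fin k → Fin K → ℝ) : ℝ :=
  ∏ j, ∑ σ : Fin K → Bool, Real.exp (c j σ) * ∏ i, (1 + msg x ω j i * sgn (σ i)) / 2

/-- `T U`, with a Poisson number of mean `K * lam` of clauses. -/
def TU (lam : ℝ) (μ : Measure (Clause K)) (ν : Measure ℝ) (m : Fin r → ℝ)
    (x : (Fin (r + 1) → ℝ) → ℝ) : ℝ :=
  ∫ k, ∫ c : Fin k → Clause K × Fin K, ∫ h, ∫ w₀,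
      Real.log (rpowRec (lvl k K) r m fun w => Uval c h x (Fin.cons w₀ w))
    ∂lvl k K ∂ν ∂(Measure.pi fun _ => μ.prod (unif (Fin K)))
    ∂poissonMeasure ((K : ℝ) * lam).toNNReal

/-- `T V`, with a Poisson number of mean `(K - 1) * lam` of clauses. -/
def TV (lam : ℝ) (μ : Measure (Clause K)) (m : Fin r → ℝ)
    (x : (Fin (r + 1) → ℝ) → ℝ) : ℝ :=
  ∫ k, ∫ c : Fin k → Clause K, ∫ w₀,
      Real.log (rpowRec (lvl k K) r m fun w => Vval c x (Fin.cons w₀ w))
    ∂lvl k K ∂(Measure.pi fun _ => μ)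
    ∂poissonMeasure (((K : ℝ) - 1) * lam).toNNReal

/-- Parameters of the trial functional at depth `r`. -/
structure Param (r : ℕ) where
  m : Fin r → ℝ
  x : (Fin (r + 1) → ℝ) → ℝ
  mono : StrictMono m
  pos : ∀ p, 0 < m p
  lt_one : ∀ p, m p < 1
  meas : Measurable x
  range : ∀ w, x w ∈ Set.Icc (-1 : ℝ) 1

/-- The values of the trial functional over all depths and parameters. -/
def trialValues (lam : ℝ) (μ : Measure (Clause K)) (ν : Measure ℝ) : Set ℝ :=
  {v | ∃ (r : ℕ) (p : Param r), v = TU lam μ ν p.m p.x - TV lam μ p.m p.x}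

/-- The potential `log (a (1 + b ∏ f_j))` of the product form. -/
def thetaOf (a b : ℝ) (f : Fin K → Bool → ℝ) : Clause K :=
  fun σ => Real.log (a * (1 + b * ∏ j, f j (σ j)))

/-- The class of models: `θ = log (a (1 + b f_1 ⋯ f_K))` with `b` independent of the independent,
identically distributed `f_j`, positivity, and integrability of `θ` and of the field. -/
structure InClass {Ω : Type*} [MeasurableSpace Ω] (P : Measure Ω) (a b : Ω → ℝ)
    (f : Fin K → Ω → Bool → ℝ) (ν : Measure ℝ) : Prop where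
  meas_a : Measurable a
  meas_b : Measurable b
  meas_f : ∀ j, Measurable (f j)
  a_pos : ∀ ω, 0 < a ω
  b_mem : ∀ ω, b ω ∈ Set.Ioo (-1 : ℝ) 1
  f_mem : ∀ j ω s, f j ω s ∈ Set.Icc (-1 : ℝ) 1
  indep : IndepFun b (fun ω j => f j ω) P
  iindep : iIndepFun f P
  ident : ∀ i j, IdentDistrib (f i) (f j) P P
  positive : ∀ n : ℕ, 1 ≤ n → 0 ≤ ∫ ω, (-b ω) ^ n ∂P
  theta_int : ∀ σ, Integrable (fun ω => thetaOf (a ω) (b ω) (fun j => f j ω) σ) P
  field_int : Integrable (fun x : ℝ => x) ν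

/-- The law of the clause potential. -/
def clauseLaw {Ω : Type*} [MeasurableSpace Ω] (P : Measure Ω) (a b : Ω → ℝ)
    (f : Fin K → Ω → Bool → ℝ) : Measure (Clause K) :=
  P.map fun ω => thetaOf (a ω) (b ω) fun j => f j ω

/-- The Mézard–Parisi formula. -/
def MezardParisi : Prop :=
  ∀ K : ℕ, 2 ≤ K → Even K → ∀ lam : ℝ, 0 < lam →
    ∀ (Ω : Type) (_ : MeasurableSpace Ω) (P : Measure Ω) (_ : IsProbabilityMeasure P)
      (a b : Ω → ℝ) (f : Fin K → Ω → Bool → ℝ) (ν : Measure ℝ) (_ : IsProbabilityMeasure ν),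
      InClass P a b f ν →
        ∃ L : ℝ, IsGLB (trialValues lam (clauseLaw P a b f) ν) L ∧
          Tendsto (pressure lam (clauseLaw P a b f) ν) atTop (𝓝 L)

end Vale.Agent.P168
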