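import Vale.Agent.P157.Casc.LimitDefs
import Vale.Agent.P168.Arr

/-!
P168: the law of the trees of replicas of the uniform cascade, the identities of limit arrays, and
logarithms of means as series over replicas.
-/

open MeasureTheory ProbabilityTheory Filter Topology

noncomputable section

namespace Vale.Agent.P168

variable {K : ℕ}

/-- Levels of the pairs of `n` replicas. -/
abbrev Lvls (K n : ℕ) : Type := Fin n → Fin n → Fin (K + 1)

/-- The levels of the first `n` replicas. -/
def Lvls.init {n : ℕ} (U : Lvls K (n + 1)) : Lvls K n := fun a b => U a.castSucc b.castSucc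

/-- The levels of replicas of the uniform cascade are ultrametric. -/
def Lvls.IsTree {n : ℕ} (U : Lvls K n) : Prop :=
  (∀ a, U a a = Fin.last K) ∧ (∀ a b, U a b = U b a) ∧ ∀ a b c, min (U a b) (U b c) ≤ U a c

/-- Probability that a new replica falls in the node at level `l` containing `g` of `n` old
replicas. -/
def inNode (K n g l : ℕ) : ℝ := if l = 0 then 1 else ((g : ℝ) - mpar K l) / n

/-- Probability of the last row of `U` given the first `n` replicas: it falls in the node of its
closest relative at their level and in none of the children of that node that hold old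
replicas. -/
def attach {n : ℕ} (U : Lvls K (n + 1)) : ℝ :=
  let l : ℕ := Finset.univ.sup fun a : Fin n => (U a.castSucc (Fin.last n) : ℕ)
  let S : Finset (Fin n) := Finset.univ.filter fun a => (U a.castSucc (Fin.last n) : ℕ) = l
  inNode K n S.card l -
    if l < K then ∑ a ∈ S,
      let T : Finset (Fin n) := Finset.univ.filter fun b => l < (U.init a b : ℕ)
      inNode K n T.card (l + 1) / T.card
    else 0

open Classical in
/-- The law of the levels of `n` replicas of the uniform cascade of depth `K`. -/
def treeW (K : ℕ) : (n : ℕ) → Lvls K n → ℝ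
  | 0, _ => 1
  | 1, U => if U 0 0 = Fin.last K then 1 else 0
  | n + 2, U => if U.IsTree then treeW K (n + 1) U.init * attach U else 0

/-- A placement of replicas with given levels in the infinite tree. -/
def place {n : ℕ} (U : Lvls K n) (a : Fin n) : Pt K :=
  (fun l => ((Finset.univ.filter fun b => (l : ℕ) < (U a b : ℕ)).min.getD a : Fin n), a)

namespace Arr

variable (A : Arr K)

/-- Mean of a function of the levels and spins of `n` replicas. -/
def rep {n : ℕ} (g : Lvls K n → (Fin n → ℕ → Bool) → ℝ) : ℝ :=
  ∑ U : Lvls K n, treeW K n U * ∫ σ, g U (fun a => σ (place U a)) ∂A.law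

/-- Symmetric shape functions of `q` replicas in distinct leaves. -/
def ShapeFun {q : ℕ} (C : Lvls K q → ℝ) : Prop :=
  (∀ (e : Equiv.Perm (Fin q)) (U : Lvls K q), C (fun a b => U (e a) (e b)) = C U) ∧
    ∀ (U : Lvls K q) (a b : Fin q), a ≠ b → U a b = Fin.last K → C U = 0

/-- A list of `q` distinct replicas: the chosen old ones followed by `j` new ones. -/
def pick {n q : ℕ} (O : Finset (Fin n)) (h : O.card ≤ q) (i : Fin q) : Fin (n + (q - O.card)) :=
  if hi : (i : ℕ) < O.card then Fin.castAdd _ (O.orderEmbOfFin rfl ⟨i, hi⟩)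
  else Fin.natAdd n ⟨(i : ℕ) - O.card, by omega⟩

open Classical in
/-- The signed sum of the identity of order `q` for the test `f` at sites `1, 2, …`, with the
marked replica `0` and the product of spins at site `0`. -/
def identSum {n q : ℕ} (hn : 0 < n) (C : Lvls K q → ℝ)
    (f : Lvls K n → (Fin n → ℕ → Bool) → ℝ) : ℝ :=
  ∑ O : Finset (Fin n), if h : (⟨0, hn⟩ : Fin n) ∈ O ∧ O.card ≤ q then
      (-1 : ℝ) ^ (q - O.card) * ((n + (q - O.card) - 1).choose (q - O.card) : ℝ) *
        A.rep (n := n + (q - O.card)) fun U σ =>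
          f (fun a b => U (Fin.castAdd _ a) (Fin.castAdd _ b))
              (fun a i => σ (Fin.castAdd _ a) (i + 1)) *
            C (fun i k => U (pick O h.2 i) (pick O h.2 k)) * ∏ i, sgn (σ (pick O h.2 i) 0)
    else 0

/-- Replicas may be permuted. -/
def RepSym : Prop :=
  ∀ (n : ℕ), 1 ≤ n → ∀ (e : Equiv.Perm (Fin n)) (g : Lvls K n → (Fin n → ℕ → Bool) → ℝ),
    (∀ U, Measurable (g U)) →
      A.rep (fun U σ => g (fun a b => U (e a) (e b)) fun a => σ (e a)) = A.rep g

/-- The identities of the limit arrays: replicas are exchangeable and the signed sum is a multiple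
of the mean of the test. -/
def Ident : Prop :=
  A.RepSym ∧ ∀ (q : ℕ), 1 ≤ q → ∀ C : Lvls K q → ℝ, ShapeFun C → ∃ c : ℝ,
    ∀ (n : ℕ) (hn : 0 < n) (M : ℕ) (f : Lvls K n → (Fin n → ℕ → Bool) → ℝ),
      (∀ U σ τ, (∀ a, ∀ i < M, σ a i = τ a i) → f U σ = f U τ) →
      A.identSum hn C f = c * A.rep f

/-- Expected logarithm of the mean of a factor with values in `(0, 1]`, as a series over
replicas. -/
def logMean (F : (ℕ → Bool) → ℝ) : ℝ :=
  -∑' j : ℕ, ((j : ℝ) + 1)⁻¹ * A.rep (n := j + 1) fun _ σ => ∏ a, (1 - F (σ a))

end Arr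

/-- The limit arrays have the telescoped identities, with constants free of the depth. -/
def Telescope : Prop := ∃ C : ℕ → ℝ, ∀ K : ℕ, 1 ≤ K → ∀ A : Arr K, A.Ident → A.Tel C

/-- The tree law represents the recursion: for a factor of the path labels with values in
`[δ, 1]`, the recursion equals the series over replicas with independent labels of the nodes. -/
def TreeRep : Prop :=
  ∀ (K : ℕ) (X : Type) (_ : MeasurableSpace X) (ν : Measure X) (_ : IsProbabilityMeasure ν)
    (G : (Fin K → X) → ℝ), Measurable G → (∃ δ > 0, ∀ y, δ ≤ G y ∧ G y ≤ 1) →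
    P157.Casc.casc ν K (P157.Casc.mlev K) (fun y => Real.log (G y)) =
      -∑' j : ℕ, ((j : ℝ) + 1)⁻¹ * ∑ U : Lvls K (j + 1), treeW K (j + 1) U *
        ∫ ξ : (l : Fin K) → Fin (j + 1) → X,
          ∏ a, (1 - G fun l => ξ l ((Finset.univ.filter fun b => (l : ℕ) < (U a b : ℕ)).min.getD a))
          ∂(Measure.pi fun _ => Measure.pi fun _ => ν)

end Vale.Agent.P168
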