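import Vale.Agent.P157.Casc.Limit
import Vale.Agent.P168.Tree

/-!
P168: Poisson lists, the perturbed system with an external cascade, and the interfaces between
the modules.
-/

open MeasureTheory ProbabilityTheory Filter Topology
open scoped NNReal ENNReal

noncomputable section

namespace Vale.Agent.P168

/-- Finite lists of elements of `T`. -/
abbrev PL (T : Type) : Type := (k : ℕ) × (Fin k → T)

/-- The law of a Poisson number of mean `c` of independent elements of law `τ`. -/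
def plaw {T : Type} [MeasurableSpace T] (c : ℝ≥0) (τ : Measure T) : Measure (PL T) :=
  Measure.sum fun k => poissonMeasure c {k} • (Measure.pi fun _ : Fin k => τ).map (Sigma.mk k)

/-- The concatenation of two lists. -/
def PL.app {T : Type} (p q : PL T) : PL T := ⟨p.1 + q.1, Fin.append p.2 q.2⟩

/-- A list with one more element. -/
def PL.add {T : Type} (t : T) (p : PL T) : PL T := ⟨p.1 + 1, Fin.cons t p.2⟩

/-- A function of lists that ignores the order. -/
def PL.Sym {T : Type} (G : PL T → ℝ) : Prop :=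
  ∀ (k : ℕ) (e : Equiv.Perm (Fin k)) (v : Fin k → T), G ⟨k, v ∘ e⟩ = G ⟨k, v⟩

/-- Kinds of perturbing clauses: number of tags, set of marked tag paths, strength, and whether a
spin takes part. -/
abbrev PKind : Type := ℕ × Finset (List ℕ) × ℕ × Bool

/-- The kind with a given number. -/
def pkind (j : ℕ) : PKind := (Encodable.decode₂ PKind j).getD (0, ∅, 0, false)

/-- The law of the numbers of the kinds. -/
def kindLaw : Measure ℕ := Measure.sum fun j => ((2 : ℝ≥0∞) ^ (j + 1))⁻¹ • Measure.dirac j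

/-- Perturbing clauses: kind and site. -/
abbrev Pert (N : ℕ) : Type := PL (ℕ × Fin N)

/-- Clauses of the model and fields. -/
abbrev Base (Kc N : ℕ) : Type := PL (Term Kc N) × (Fin N → ℝ)

/-- Labels of one vertex: independent uniform variables, two for each perturbing clause. -/
abbrev Lab : Type := ℕ → ℝ

/-- The law of the labels of a vertex. -/
def labLaw : Measure Lab := Measure.infinitePi fun _ => u01

variable {Kc N K : ℕ}

/-- The sign of the perturbing clause `i` of kind `P` on a path: `1` on the marked tag paths and a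
fair sign of the leaf elsewhere. -/
def flag (P : PKind) (i : ℕ) (y : Fin K → Lab) : ℝ :=
  if List.ofFn (fun l => ⌊(P.1 : ℝ) * y l (Nat.pair i 0)⌋₊) ∈ P.2.1 then 1
  else if h : 0 < K then (if y ⟨K - 1, by omega⟩ (Nat.pair i 1) < 1 / 2 then 1 else -1) else 1

/-- The energy of the perturbing clauses with parameters `x`. -/
def pertE (x : ℕ → ℝ) (p : Pert N) (y : Fin K → Lab) (σ : Fin N → Bool) : ℝ :=
  ∑ i : Fin p.1, x (p.2 i).1 * (((pkind (p.2 i).1).2.2.1 : ℝ) + 1)⁻¹ *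
    flag (pkind (p.2 i).1) i y *
    (if (pkind (p.2 i).1).2.2.2 then sgn (σ (p.2 i).2) else 1)

/-- The weight of a configuration at a leaf. -/
def sysY (x : ℕ → ℝ) (z : Base Kc N × Pert N) (y : Fin K → Lab) (σ : Fin N → Bool) : ℝ :=
  Real.exp (ham z.1.1.2 z.1.2 σ + pertE x z.2 y σ)

/-- The law of the root data: clauses of mean `c`, fields, and perturbing clauses of mean `s`. -/
def rootLaw (μ : Measure (Clause Kc)) (ν : Measure ℝ) (N : ℕ) (c s : ℝ≥0) :
    Measure (Base Kc N × Pert N) :=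
  ((plaw c (μ.prod (unif (Fin Kc → Fin N)))).prod (Measure.pi fun _ => ν)).prod
    (plaw s (kindLaw.prod (unif (Fin N))))

/-- The weights of the states of the system on a cascade tree of degree `n`. -/
def sysW {n : ℕ} (x : ℕ → ℝ) (z : Base Kc N × Pert N) (W : P157.Casc.Node K n → ℝ)
    (ξ : P157.Casc.Node K n → Lab) (s : P157.Casc.Leaf K n × (Fin N → Bool)) : ℝ :=
  P157.Casc.wgt (P157.Casc.mlev K) W s.1 * sysY x z (P157.Casc.path ξ s.1) s.2

/-- The centred free energy of the system. -/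
def sysG (μ : Measure (Clause Kc)) (ν : Measure ℝ) (N : ℕ) (c s : ℝ≥0) (K n : ℕ) (x : ℕ → ℝ) :
    ℝ :=
  (∫ z, ∫ W, ∫ ξ, Real.log (∑ st : P157.Casc.Leaf K n × (Fin N → Bool), sysW x z W ξ st)
      ∂P157.Casc.casX K n labLaw ∂P157.Casc.casW (P157.Casc.mlev K) n ∂rootLaw μ ν N c s)
    - P157.Casc.cst (P157.Casc.mlev K) n

/-- Expected average of a function of the levels and spins of `r` replicas at uniform sites. -/
def sysRep (μ : Measure (Clause Kc)) (ν : Measure ℝ) (N : ℕ) (c s : ℝ≥0) (K n : ℕ) (x : ℕ → ℝ)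
    {r M : ℕ} (g : Lvls K r → (Fin r → Fin M → Bool) → ℝ) : ℝ :=
  ∫ z, ∫ W, ∫ ξ, ∫ site : Fin M → Fin N,
      P157.Casc.avg (sysW x z W ξ) r
        (fun st => g (fun a b => P157.Casc.com (st a).1 (st b).1) fun a i => (st a).2 (site i))
      ∂(Measure.pi fun _ => unif (Fin N))
    ∂P157.Casc.casX K n labLaw ∂P157.Casc.casW (P157.Casc.mlev K) n ∂rootLaw μ ν N c s

/-- The parameters of the perturbation are independent and uniform on `[1, 2]`. -/
def xLaw : Measure (ℕ → ℝ) := Measure.infinitePi fun _ => volume.restrict (Set.Icc 1 2)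

/-- Strength of the perturbation at `N` sites. -/
def pertS (N : ℕ) : ℝ≥0 := ((N : ℝ) ^ (3 / 4 : ℝ)).toNNReal

/-- Along any admissible sequence of systems, parameters may be chosen almost as low as the average
of any bounded functional, and a subsequence of the replicas then converges to an array with the
identities. -/
def LimitArrays : Prop :=
  ∀ (Kc : ℕ) (μ : Measure (Clause Kc)) (ν : Measure ℝ), 1 ≤ Kc → IsProbabilityMeasure μ →
    IsProbabilityMeasure ν → (∃ L, (∀ᵐ θ ∂μ, ∀ σ, |θ σ| ≤ L) ∧ ∀ᵐ h ∂ν, |h| ≤ L) →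
    ∀ K : ℕ, 1 ≤ K → ∀ (Λ : ℝ) (c : ℕ → ℝ≥0), (∀ N, (c N : ℝ) ≤ Λ * N) →
      ∀ nmin : ℕ → ℕ, ∃ n : ℕ → ℕ, (∀ N, nmin N ≤ n N) ∧
        ∀ (obj : ℕ → (ℕ → ℝ) → ℝ), (∃ B, ∀ N x, |obj N x| ≤ B) → (∀ N, Measurable (obj N)) →
          ∀ ε : ℝ, 0 < ε → ∃ x : ℕ → ℕ → ℝ, (∀ N j, x N j ∈ Set.Icc (1 : ℝ) 2) ∧
            (∀ᶠ N in atTop, obj N (x N) ≤ (∫ y, obj N y ∂xLaw) + ε) ∧
            ∀ φ : ℕ → ℕ, StrictMono φ → ∃ (ψ : ℕ → ℕ) (A : Arr K), StrictMono ψ ∧ A.Ident ∧
              ∀ (r M : ℕ) (g : Lvls K r → (Fin r → Fin M → Bool) → ℝ), 1 ≤ r →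
                Tendsto (fun k => sysRep μ ν (φ (ψ k)) (c (φ (ψ k))) (pertS (φ (ψ k))) K
                    (n (φ (ψ k))) (x (φ (ψ k))) g) atTop
                  (𝓝 (A.rep fun U σ => g U fun a i => σ a i))

/-- The upper bound by interpolation. -/
def UpperBound : Prop :=
  ∀ (K : ℕ), 2 ≤ K → Even K → ∀ lam : ℝ, 0 < lam →
    ∀ (Ω : Type) (_ : MeasurableSpace Ω) (P : Measure Ω) (_ : IsProbabilityMeasure P)
      (a b : Ω → ℝ) (f : Fin K → Ω → Bool → ℝ) (ν : Measure ℝ) (_ : IsProbabilityMeasure ν),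
      InClass P a b f ν → ∀ v ∈ trialValues lam (clauseLaw P a b f) ν, ∀ ε : ℝ, 0 < ε →
        ∀ᶠ N in atTop, pressure lam (clauseLaw P a b f) ν N ≤ v + ε

/-- The lower bound for bounded models. -/
def LowerBdd : Prop :=
  ∀ (K : ℕ), 2 ≤ K → ∀ lam : ℝ, 0 < lam → ∀ (μ : Measure (Clause K)) (ν : Measure ℝ),
    IsProbabilityMeasure μ → IsProbabilityMeasure ν →
    (∃ L, (∀ᵐ θ ∂μ, ∀ σ, |θ σ| ≤ L) ∧ ∀ᵐ h ∂ν, |h| ≤ L) → ∀ ε : ℝ, 0 < ε →
      ∀ᶠ N in atTop, ∃ v ∈ trialValues lam μ ν, v ≤ pressure lam μ ν N + ε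

/-- The number of sites and clauses of the cavity: `U` at each of `M` sites and `V`. -/
abbrev CavU (Kc M : ℕ) : Type :=
  (Fin M → PL (Clause Kc × Fin Kc)) × (Fin M → ℝ)

/-- The factor `∏ U` of the spins at the cavity sites, site `(s, j, p)` carrying spin `p` of the
clause `j` of the new site `s`. -/
def cavU {Kc M : ℕ} (u : CavU Kc M) (σ : ℕ → Bool) : ℝ :=
  ∏ s : Fin M, ∑ e : Bool, Real.exp (u.2 s * sgn e) * ∏ j : Fin (u.1 s).1,
    Real.exp (((u.1 s).2 j).1 fun p =>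
      if p = ((u.1 s).2 j).2 then e else σ (2 * Nat.pair s (Nat.pair j p)))

/-- The factor `V` of the spins at the cavity sites. -/
def cavV {Kc : ℕ} (v : PL (Clause Kc)) (σ : ℕ → Bool) : ℝ :=
  ∏ j : Fin v.1, Real.exp ((v.2 j) fun p => σ (2 * Nat.pair j p + 1))

/-- The cavity functional of an array for `M` new sites, with the logarithms as series after
scaling each factor by its bound `exp (L * ·)`. -/
def cavity {K Kc : ℕ} (A : Arr K) (lam : ℝ) (μ : Measure (Clause Kc)) (ν : Measure ℝ) (L : ℝ)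
    (M : ℕ) : ℝ :=
  (∫ u : CavU Kc M,
      let B : ℝ := ∑ s, (L + Real.log 2 + L * (u.1 s).1)
      B + A.logMean (fun σ => Real.exp (-B) * cavU u σ)
    ∂((Measure.pi fun _ => plaw ((Kc : ℝ) * lam).toNNReal (μ.prod (unif (Fin Kc)))).prod
      (Measure.pi fun _ => ν))) -
  ∫ v : PL (Clause Kc), (L * v.1 + A.logMean fun σ => Real.exp (-(L * v.1)) * cavV v σ)
    ∂plaw ((M : ℝ) * (((Kc : ℝ) - 1) * lam)).toNNReal μ

/-- The cavity bound: the pressure of a bounded model is at least the cavity functional of some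
array with the identities, at every depth and every number of new sites. -/
def CavityBound : Prop :=
  ∀ (Kc : ℕ), 2 ≤ Kc → ∀ lam : ℝ, 0 < lam → ∀ (μ : Measure (Clause Kc)) (ν : Measure ℝ) (L : ℝ),
    IsProbabilityMeasure μ → IsProbabilityMeasure ν → 0 ≤ L →
    (∀ᵐ θ ∂μ, ∀ σ, |θ σ| ≤ L) → (∀ᵐ h ∂ν, |h| ≤ L) →
    ∀ K : ℕ, 1 ≤ K → ∀ M : ℕ, 1 ≤ M → ∀ ε : ℝ, 0 < ε → ∃ A : Arr K, A.Ident ∧
      ∀ᶠ N in atTop, cavity A lam μ ν L M / M ≤ pressure lam μ ν N + ε

/-- Decoupled arrays give trial values. -/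
def CavityTrial : Prop :=
  ∀ (Kc : ℕ), 2 ≤ Kc → ∀ lam : ℝ, 0 < lam → ∀ (μ : Measure (Clause Kc)) (ν : Measure ℝ) (L : ℝ),
    IsProbabilityMeasure μ → IsProbabilityMeasure ν → 0 ≤ L →
    (∀ᵐ θ ∂μ, ∀ σ, |θ σ| ≤ L) → (∀ᵐ h ∂ν, |h| ≤ L) →
    ∀ C : ℕ → ℝ, ∀ M : ℕ, 1 ≤ M → ∀ ε : ℝ, 0 < ε → ∃ K0, ∀ K ≥ K0, ∀ A : Arr K, A.Tel C →
      ∃ v ∈ trialValues lam μ ν, v ≤ cavity A lam μ ν L M / M + ε

end Vale.Agent.P168
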